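import Vale.Agent.N111.Converse

/-! P111: cotype-cotype bounds under the approximation property, with uniform constants, and for
approximable operators. -/

namespace Vale.Agent.Results.P111.A0Approx

open Vale.Agent.P111 Vale.Agent.N111

universe u v

theorem result :
    -- (1) spaces with the approximation property, (2) approximable operators; `K = K(q, r, C)`
    ∀ q r C : ℝ, 2 ≤ q → 2 ≤ r → ∃ K : ℝ,
      (∀ (X : Type u) [NormedAddCommGroup X] [NormedSpace ℝ X] [CompleteSpace X], HasAP X →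
        CotypeWith q C X → CotypeWith r C (X →L[ℝ] ℝ) →
        KConvexWith K X ∧ L1.TypeWith (r / (r - 1)) K X ∧
          L1.TypeWith (q / (q - 1)) K (X →L[ℝ] ℝ) ∧
          ∀ (s : ℕ) (E : Submodule ℝ X) (T : E ≃L[ℝ] L1s s),
            (s : ℝ) ^ (1 / r) ≤ K * (‖(T : E →L[ℝ] L1s s)‖ * ‖(T.symm : L1s s →L[ℝ] E)‖)) ∧
      ∀ (X : Type u) (Y : Type v) [NormedAddCommGroup X] [NormedSpace ℝ X] [CompleteSpace X]
        [NormedAddCommGroup Y] [NormedSpace ℝ Y] [CompleteSpace Y] (V : X →L[ℝ] Y),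
        Approximable V → CotypeWith q C Y → CotypeWith r C (X →L[ℝ] ℝ) →
        OpKConvexWith (K * ‖V‖) V ∧ OpTypeWith (r / (r - 1)) (K * ‖V‖) V := by
  intro q r C hq2 hr2
  obtain ⟨K₁, hK₁0, hK₁⟩ := space_uniform.{u} hq2 hr2 C
  obtain ⟨K₂, hK₂0, hK₂⟩ := op_uniform.{u, v} hq2 hr2 C
  refine ⟨max K₁ K₂, ?_, ?_⟩
  · intro X _ _ _ hAP hq hr
    obtain ⟨h1, h2, h3, h4⟩ := hK₁ X hAP hq hr
    refine ⟨fun n f => (h1 n f).trans (mul_le_mul_of_nonneg_right (le_max_left _ _)
      (Real.rpow_nonneg (avg_nonneg fun _ => sq_nonneg _) _)),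
      TypeWith.mono' h2 (le_max_left _ _), TypeWith.mono' h3 (le_max_left _ _),
      fun s E T => (h4 s E T).trans (mul_le_mul_of_nonneg_right (le_max_left _ _) ?_)⟩
    exact mul_nonneg (ContinuousLinearMap.opNorm_nonneg _) (ContinuousLinearMap.opNorm_nonneg _)
  · intro X Y _ _ _ _ _ _ V hV hq hr
    obtain ⟨h1, h2⟩ := hK₂ X Y V hV hq hr
    have h3 : K₂ * ‖V‖ ≤ max K₁ K₂ * ‖V‖ :=
      mul_le_mul_of_nonneg_right (le_max_right _ _) (norm_nonneg V)
    exact ⟨fun n f => (h1 n f).trans (mul_le_mul_of_nonneg_right h3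
        (Real.rpow_nonneg (avg_nonneg fun _ => sq_nonneg _) _)),
      fun n x => (h2 n x).trans (mul_le_mul_of_nonneg_right h3
        (Real.rpow_nonneg (Finset.sum_nonneg fun i _ => by positivity) _))⟩

end Vale.Agent.Results.P111.A0Approx
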